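import Vale.Agent.P061.SSC.Tree
import Vale.Agent.P061.Dense.Assemble

namespace Vale.Agent.P061.SSC

open Finset Vale.Agent.P061 Vale.Agent.P061.Dense

variable {V E : Type} [Fintype V] [Fintype E]

/-- The final constant. -/
def sscConst (a b : ℕ) : ℕ := (4 * expS a b + 3) * expS a b + b ^ 2

theorem exists_thin_of_ssc [DecidableEq V] (ends : E → Sym2 V) (hl : ∀ e, ¬ (ends e).IsDiag)
    (k a b : ℕ) (hk : 1 ≤ k) (ha : 1 ≤ a) (hb : 2 ≤ b) (hV : 2 ≤ Fintype.card V)
    (hc : EdgeConn ends k)
    (hssc : ∀ X : Finset V, b * mass (degG ends) X ≤ mass (degG ends) univ →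
      mass (degG ends) X ≤ a * between (mult ends) X Xᶜ) :
    ∃ T, IsSpanningTree ends T ∧ ∀ S : Finset V, S.Nonempty → S ≠ univ →
      k * cutSize ends T S ≤ sscConst a b * cutSize ends univ S := by
  classical
  have hmin : ∀ v, k ≤ degG ends v := le_mult_sum ends k hc hV
  obtain ⟨g, hgcard, hexp⟩ := exists_partition (mult ends) (degG ends) a b (mult_comm ends)
    (fun v => hk.trans (hmin v)) ha hb (by omega) hssc
  set Q := expS a b with hQ
  set D := 4 * Q + 3 with hD
  set I := univ.image g with hI
  have htree : ∀ i : I, ∃ H, Spanner ends k (classOf g i.1) H D := by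
    intro i
    refine exists_spanner ends k Q hk hmin _ ?_ (hexp i.1)
    obtain ⟨v, -, hv⟩ := mem_image.1 i.2
    exact ⟨v, by simp [classOf, hv]⟩
  choose tr htr using htree
  set pairs := (I ×ˢ I).filter fun ij => ∃ e a b, ends e = s(a, b) ∧ g a = ij.1 ∧ g b = ij.2
    with hpairs
  have hcon : ∀ ij : pairs, ∃ e a b, ends e = s(a, b) ∧ g a = ij.1.1 ∧ g b = ij.1.2 :=
    fun ij => (mem_filter.1 ij.2).2
  choose con hcon' using hcon
  set J := pairs.attach.image con with hJ
  set H := (univ.biUnion tr) ∪ J with hH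
  have hsame : ∀ p q, g p = g q → (supportGraph ends H).Reachable p q := by
    intro p q hab
    have hi : g p ∈ I := mem_image_of_mem g (mem_univ p)
    refine ((htr ⟨g p, hi⟩).2.2 p (by simp [classOf]) q (by simp [classOf, hab])).mono
      (supportGraph_mono ends ?_)
    intro e he
    exact mem_union_left _ (mem_biUnion.2 ⟨⟨g p, hi⟩, mem_univ _, he⟩)
  have hedge : ∀ e p q, ends e = s(p, q) → (supportGraph ends H).Reachable p q := by
    intro e p q he
    have hp : (g p, g q) ∈ pairs :=
      mem_filter.2 ⟨mem_product.2 ⟨mem_image_of_mem g (mem_univ p), mem_image_of_mem g (mem_univ q)⟩,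
        e, p, q, he, rfl, rfl⟩
    obtain ⟨a', b', he', ha', hb'⟩ := hcon' ⟨_, hp⟩
    have hne : a' ≠ b' := by
      intro h
      apply hl (con ⟨_, hp⟩)
      rw [he', h]
      simp
    have hadj : (supportGraph ends H).Adj a' b' := by
      rw [supportGraph, SimpleGraph.fromEdgeSet_adj]
      exact ⟨⟨con ⟨_, hp⟩, mem_union_right _ (mem_image.2 ⟨_, mem_attach _ _, rfl⟩), he'⟩, hne⟩
    exact ((hsame p a' ha'.symm).trans hadj.reachable).trans (hsame b' q hb')
  have hconn : (supportGraph ends H).Connected := by
    obtain ⟨v⟩ : Nonempty V := Fintype.card_pos_iff.1 (by omega)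
    rw [SimpleGraph.connected_iff_exists_forall_reachable]
    refine ⟨v, fun u => ?_⟩
    by_contra hu
    set S := univ.filter fun x => (supportGraph ends H).Reachable v x with hS
    have hvS : v ∈ S := by simp [hS]
    have huS : u ∉ S := by simp [hS, hu]
    have h1 := hc S ⟨v, hvS⟩ (fun h => huS (h ▸ mem_univ u))
    obtain ⟨e, he⟩ : (univ.filter (Crosses ends S)).Nonempty := by
      rw [← card_pos]
      unfold cutSize at h1
      omega
    obtain ⟨p, q, hpq, hp, hq⟩ := (mem_filter.1 he).2
    exact hq (mem_filter.2 ⟨mem_univ _, ((mem_filter.1 hp).2).trans (hedge e p q hpq)⟩)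
  obtain ⟨T, hTH, hT⟩ := exists_spanning_subset ends H hconn
  refine ⟨T, hT, fun S hS1 hS2 => ?_⟩
  have hJcard : J.card ≤ b ^ 2 := by
    calc J.card ≤ pairs.attach.card := Finset.card_image_le
      _ = pairs.card := card_attach
      _ ≤ (I ×ˢ I).card := card_filter_le _ _
      _ = I.card * I.card := card_product _ _
      _ ≤ b * b := Nat.mul_le_mul hgcard hgcard
      _ = _ := by ring
  have hcut : cutSize ends T S ≤ (∑ i : I, cutSize ends (tr i) S) + J.card := by
    refine (cutSize_mono ends hTH S).trans ?_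
    unfold cutSize
    rw [hH, filter_union, filter_biUnion]
    exact (card_union_le _ _).trans (add_le_add card_biUnion_le (card_filter_le _ _))
  have hpart : ∀ i : I, k * cutSize ends (tr i) S ≤
      D * Q * between (mult ends) (classOf g i.1 ∩ S) Sᶜ := by
    intro i
    calc k * cutSize ends (tr i) S
        ≤ D * min (mass (degG ends) (classOf g i.1 ∩ S))
            (mass (degG ends) (classOf g i.1 \ (classOf g i.1 ∩ S))) :=
          cutSize_spanner_le ends k _ _ D (htr i) S
      _ ≤ D * (Q * between (mult ends) (classOf g i.1 ∩ S) (classOf g i.1 \ (classOf g i.1 ∩ S))) :=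
          Nat.mul_le_mul_left _ (hexp i.1 _ inter_subset_left)
      _ ≤ D * (Q * between (mult ends) (classOf g i.1 ∩ S) Sᶜ) := by
          refine Nat.mul_le_mul_left _ (Nat.mul_le_mul_left _
            (between_mono _ (Subset.refl _) ?_))
          intro x hx
          simp only [mem_sdiff, mem_inter] at hx
          rw [mem_compl]
          exact fun h => hx.2 ⟨hx.1, h⟩
      _ = _ := by ring
  have hsum : ∑ i : I, between (mult ends) (classOf g i.1 ∩ S) Sᶜ = cutSize ends univ S := by
    rw [cutSize_eq_between, sum_coe_sort I (fun i => between (mult ends) (classOf g i ∩ S) Sᶜ)]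
    unfold between
    rw [← sum_fiberwise_of_maps_to (t := I) (g := g) (s := S)
      (fun x _ => mem_image_of_mem g (mem_univ x))]
    refine sum_congr rfl fun i _ => sum_congr ?_ fun x _ => rfl
    ext x
    simp [classOf, and_comm]
  calc k * cutSize ends T S ≤ k * ((∑ i : I, cutSize ends (tr i) S) + J.card) :=
        Nat.mul_le_mul_left _ hcut
    _ = (∑ i : I, k * cutSize ends (tr i) S) + J.card * k := by rw [← mul_sum]; ring
    _ ≤ (∑ i : I, D * Q * between (mult ends) (classOf g i.1 ∩ S) Sᶜ) +
          b ^ 2 * cutSize ends univ S :=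
        add_le_add (sum_le_sum fun i _ => hpart i) (Nat.mul_le_mul hJcard (hc S hS1 hS2))
    _ = D * Q * cutSize ends univ S + b ^ 2 * cutSize ends univ S := by
        rw [← mul_sum, hsum]
    _ = sscConst a b * cutSize ends univ S := by rw [sscConst, hD, hQ]; ring

end Vale.Agent.P061.SSC
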