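import Vale.Agent.P061.Dense.Weights

namespace Vale.Agent.P061.SSC

open Finset Vale.Agent.P061.Dense

variable {V : Type} [Fintype V] [DecidableEq V]

/-- Total weight of ordered pairs with different labels. -/
def crossW (w : V → V → ℕ) (f : V → ℕ) : ℕ :=
  ∑ a, ∑ b, if f a ≠ f b then w a b else 0

/-- The class of a label. -/
def classOf (f : V → ℕ) (i : ℕ) : Finset V := univ.filter fun u => f u = i

/-- The mass of a vertex set. -/
def mass (π : V → ℕ) (X : Finset V) : ℕ := ∑ v ∈ X, π v

/-- A partition into `r` large classes with small crossing weight. -/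
def Split (w : V → V → ℕ) (π : V → ℕ) (b B r : ℕ) : Prop :=
  ∃ f : V → ℕ, (univ.image f).card = r ∧
    (∀ v, mass π univ ≤ b * mass π (classOf f (f v))) ∧
    B ^ (b + 1 - r) * crossW w f ≤ mass π univ

theorem card_labels_le (f : V → ℕ) (π : V → ℕ) (b : ℕ) (hn : 0 < mass π univ)
    (h : ∀ v, mass π univ ≤ b * mass π (classOf f (f v))) :
    (univ.image f).card ≤ b := by
  have h1 : (univ.image f).card * mass π univ ≤
      ∑ i ∈ univ.image f, b * mass π (classOf f i) := by
    rw [← smul_eq_mul]
    refine card_nsmul_le_sum _ _ _ ?_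
    intro i hi
    obtain ⟨v, _, rfl⟩ := mem_image.1 hi
    exact h v
  have h2 : ∑ i ∈ univ.image f, mass π (classOf f i) = mass π univ :=
    sum_fiberwise_of_maps_to (fun v _ => mem_image_of_mem f (mem_univ v)) π
  rw [← mul_sum, h2] at h1
  exact Nat.le_of_mul_le_mul_right h1 hn

/-- Relabelling `X` changes the crossing weight only at pairs meeting `X`. -/
theorem crossW_relabel (w : V → V → ℕ) (hs : ∀ p q, w p q = w q p) (g : V → ℕ) (X : Finset V)
    (i j : ℕ) (hij : i ≠ j) (hX : X ⊆ classOf g i) :
    crossW w (fun u => if u ∈ X then j else g u) + 2 * between w X (classOf g j) ≤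
      crossW w g + 2 * between w X (classOf g i \ X) := by
  set Y := classOf g i \ X with hY
  set P := classOf g j with hP
  have hpt : crossW w (fun u => if u ∈ X then j else g u) + between w X P + between w P X ≤
      crossW w g + between w X Y + between w Y X := by
    have e : ∀ A B : Finset V, between w A B =
        ∑ p, ∑ q, if p ∈ A ∧ q ∈ B then w p q else 0 := by
      intro A B
      unfold between
      rw [← sum_ite_mem_eq (f := fun p => ∑ q ∈ B, w p q) (s := A)]
      refine sum_congr rfl fun p _ => ?_
      by_cases hp : p ∈ A <;> simp [hp]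
    rw [e, e, e, e]
    unfold crossW
    simp only [← sum_add_distrib]
    refine sum_le_sum fun p _ => sum_le_sum fun q _ => ?_
    have hXi : ∀ u ∈ X, g u = i := fun u hu => (mem_filter.1 (hX hu)).2
    by_cases hp : p ∈ X <;> by_cases hq : q ∈ X
    · have hpP : p ∉ P := fun h => hij ((hXi p hp).symm.trans (mem_filter.1 h).2)
      have hqP : q ∉ P := fun h => hij ((hXi q hq).symm.trans (mem_filter.1 h).2)
      have hpY : p ∉ Y := fun h => (mem_sdiff.1 h).2 hp
      have hqY : q ∉ Y := fun h => (mem_sdiff.1 h).2 hq
      simp [hp, hq, hpP, hqP, hpY, hqY, hXi p hp, hXi q hq]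
    · have hpY : p ∉ Y := fun h => (mem_sdiff.1 h).2 hp
      have hpP : p ∉ P := fun h => hij ((hXi p hp).symm.trans (mem_filter.1 h).2)
      simp only [hp, hq, hpY, hpP, if_pos, if_false, true_and, false_and, add_zero, hXi p hp]
      by_cases hqi : g q = i
      · have hqY : q ∈ Y := mem_sdiff.2 ⟨mem_filter.2 ⟨mem_univ _, hqi⟩, hq⟩
        have hqP : q ∉ P := fun h => hij (hqi.symm.trans (mem_filter.1 h).2)
        simp [hqY, hqP, hqi, Ne.symm hij]
      · have hqY : q ∉ Y := fun h => hqi (mem_filter.1 (mem_sdiff.1 h).1).2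
        by_cases hqj : g q = j
        · have hqP : q ∈ P := mem_filter.2 ⟨mem_univ _, hqj⟩
          simp [hqY, hqP, hqj, hij]
        · have hqP : q ∉ P := fun h => hqj (mem_filter.1 h).2
          simp [hqY, hqP, Ne.symm hqi, Ne.symm hqj]
    · have hqY : q ∉ Y := fun h => (mem_sdiff.1 h).2 hq
      have hqP : q ∉ P := fun h => hij ((hXi q hq).symm.trans (mem_filter.1 h).2)
      simp only [hp, hq, hqY, hqP, if_pos, if_false, and_true, and_false, add_zero, zero_add,
        hXi q hq]
      by_cases hpi : g p = i
      · have hpY : p ∈ Y := mem_sdiff.2 ⟨mem_filter.2 ⟨mem_univ _, hpi⟩, hp⟩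
        have hpP : p ∉ P := fun h => hij (hpi.symm.trans (mem_filter.1 h).2)
        simp [hpY, hpP, hpi, hij]
      · have hpY : p ∉ Y := fun h => hpi (mem_filter.1 (mem_sdiff.1 h).1).2
        by_cases hpj : g p = j
        · have hpP : p ∈ P := mem_filter.2 ⟨mem_univ _, hpj⟩
          simp [hpY, hpP, hpj, Ne.symm hij]
        · have hpP : p ∉ P := fun h => hpj (mem_filter.1 h).2
          simp [hpY, hpP, hpi, hpj]
    · simp [hp, hq]
  rw [between_comm w hs P X, between_comm w hs Y X] at hpt
  omega

/-- The constant base. -/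
def baseS (a b : ℕ) : ℕ := a * b * b + 2

/-- The expansion constant. -/
def expS (a b : ℕ) : ℕ := 4 * baseS a b ^ b + 2 * a * (b + 1)

/-- A small-set expander splits into boundedly many expanders. -/
theorem exists_partition (w : V → V → ℕ) (π : V → ℕ) (a b : ℕ)
    (hs : ∀ p q, w p q = w q p) (hπ : ∀ v, 1 ≤ π v) (ha : 1 ≤ a) (hb : 2 ≤ b)
    (hV : 0 < Fintype.card V)
    (hsse : ∀ X : Finset V, b * mass π X ≤ mass π univ → mass π X ≤ a * between w X Xᶜ) :
    ∃ g : V → ℕ, (univ.image g).card ≤ b ∧
      ∀ (i : ℕ) (X : Finset V), X ⊆ classOf g i →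
        min (mass π X) (mass π (classOf g i \ X)) ≤
          expS a b * between w X (classOf g i \ X) := by
  classical
  set n := mass π univ with hn'
  have hne : Nonempty V := Fintype.card_pos_iff.1 hV
  have hn : 0 < n := hV.trans_le (by
    rw [hn', mass, ← card_univ, card_eq_sum_ones]
    exact sum_le_sum fun v _ => hπ v)
  set B := baseS a b with hB'
  have hB : 0 < B := by rw [hB', baseS]; omega
  have hg1 : Split w π b B 1 := by
    refine ⟨fun _ => 0, ?_, ?_, ?_⟩
    · rw [card_eq_one]; exact ⟨0, image_const univ_nonempty 0⟩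
    · intro v
      have : classOf (fun _ : V => 0) 0 = univ := by simp [classOf]
      rw [this]
      exact Nat.le_mul_of_pos_left _ (by omega)
    · simp [crossW]
  obtain ⟨r, ⟨f, hfr, hfsize, hfcross⟩, hmax⟩ :
      ∃ r, Split w π b B r ∧ ¬ Split w π b B (r + 1) := by
    by_contra hcon
    push Not at hcon
    have hall : ∀ j, Split w π b B (j + 1) := by
      intro j
      induction j with
      | zero => exact hg1
      | succ j ih => exact hcon _ ih
    obtain ⟨f, h1, h2, -⟩ := hall b
    have := card_labels_le f π b hn h2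
    omega
  have hr : r ≤ b := hfr ▸ card_labels_le f π b hn hfsize
  set N := B ^ (b - r) with hN
  have hM : B ^ (b + 1 - r) = N * B := by rw [hN, ← pow_succ]; congr 1; omega
  have hNpos : 1 ≤ N := Nat.one_le_pow _ _ hB
  set I := univ.image f with hI
  set Z := a * b with hZ
  let Φ : (V → I) → ℕ := fun g =>
    Z * crossW w (fun u => (g u).1) + mass π (univ.filter fun u => (g u).1 ≠ f u)
  obtain ⟨g₀, -, hopt⟩ := exists_min_image (univ : Finset (V → I)) Φ
    ⟨fun u => ⟨f u, mem_image_of_mem f (mem_univ u)⟩, mem_univ _⟩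
  set g : V → ℕ := fun u => (g₀ u).1 with hg
  have hgI : ∀ u, g u ∈ I := fun u => (g₀ u).2
  have hopt' : ∀ g' : V → ℕ, (∀ u, g' u ∈ I) →
      Z * crossW w g + mass π (univ.filter fun u => g u ≠ f u) ≤
        Z * crossW w g' + mass π (univ.filter fun u => g' u ≠ f u) :=
    fun g' h => hopt (fun u => ⟨g' u, h u⟩) (mem_univ _)
  set dist := mass π (univ.filter fun u => g u ≠ f u) with hdist
  have hΦf : Z * crossW w g + dist ≤ Z * crossW w f := by
    have := hopt' f (fun u => mem_image_of_mem f (mem_univ u))
    simpa [mass] using this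
  have hcg : crossW w g ≤ crossW w f :=
    Nat.le_of_mul_le_mul_left (le_trans (Nat.le_add_right _ _) hΦf) (by positivity)
  have hdM : dist * (N * B) ≤ Z * n := by
    calc dist * (N * B) = N * B * dist := by ring
      _ ≤ N * B * (Z * crossW w f) := Nat.mul_le_mul_left _ (le_trans (Nat.le_add_left _ _) hΦf)
      _ = Z * (N * B * crossW w f) := by ring
      _ ≤ Z * n := Nat.mul_le_mul_left _ (hM ▸ hfcross)
  have hdist' : b * dist < n := by
    refine Nat.lt_of_mul_lt_mul_right (a := N * B) ?_
    calc b * dist * (N * B) = b * (dist * (N * B)) := by ring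
      _ ≤ b * (Z * n) := Nat.mul_le_mul_left _ hdM
      _ = n * (a * b * b) := by rw [hZ]; ring
      _ < n * B := Nat.mul_lt_mul_of_pos_left (by rw [hB', baseS]; omega) hn
      _ ≤ n * (N * B) := Nat.mul_le_mul_left _ (Nat.le_mul_of_pos_left _ hNpos)
  have himg : univ.image g = I := by
    refine subset_antisymm (fun x hx => by obtain ⟨u, -, rfl⟩ := mem_image.1 hx; exact hgI u) ?_
    intro x hx
    obtain ⟨v, -, rfl⟩ := mem_image.1 hx
    by_contra hno
    have hsub : classOf f (f v) ⊆ univ.filter fun u => g u ≠ f u := by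
      intro u hu
      refine mem_filter.2 ⟨mem_univ _, fun h => hno ?_⟩
      rw [← (mem_filter.1 hu).2, ← h]
      exact mem_image_of_mem g (mem_univ u)
    have := hfsize v
    have h2 : b * mass π (classOf f (f v)) ≤ b * dist :=
      Nat.mul_le_mul_left _ (sum_le_sum_of_subset hsub)
    omega
  have hsmall : ∀ (i : ℕ) (X : Finset V), X ⊆ classOf g i → b * mass π X ≤ n →
      mass π X ≤ 2 * a * (b + 1) * between w X (classOf g i \ X) := by
    intro i X hX hXn
    rcases X.eq_empty_or_nonempty with rfl | hXne
    · simp [mass]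
    obtain ⟨x, hx⟩ := hXne
    have hi : i ∈ I := (mem_filter.1 (hX hx)).2 ▸ hgI x
    set Y := classOf g i \ X with hY
    have hsplit : between w X Xᶜ ≤ between w X Y +
        ∑ j ∈ I.erase i, between w X (classOf g j) := by
      unfold between
      rw [sum_comm (s := I.erase i), ← sum_add_distrib]
      refine sum_le_sum fun p _ => ?_
      rw [← sum_biUnion]
      · rw [← sum_union_inter]
        refine le_trans (sum_le_sum_of_subset ?_) (Nat.le_add_right _ _)
        intro q hq
        by_cases hqi : g q = i
        · exact mem_union_left _ (mem_sdiff.2 ⟨mem_filter.2 ⟨mem_univ _, hqi⟩, mem_compl.1 hq⟩)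
        · exact mem_union_right _ (mem_biUnion.2
            ⟨g q, mem_erase.2 ⟨hqi, hgI q⟩, mem_filter.2 ⟨mem_univ _, rfl⟩⟩)
      · intro j _ l _ hjl
        rw [Function.onFun, disjoint_left]
        exact fun q h1 h2 => hjl ((mem_filter.1 h1).2.symm.trans (mem_filter.1 h2).2)
    have hmove : ∀ j ∈ I.erase i,
        2 * Z * between w X (classOf g j) ≤ 2 * Z * between w X Y + mass π X := by
      intro j hj
      obtain ⟨hji, hjI⟩ := mem_erase.1 hj
      have h1 := crossW_relabel w hs g X i j (Ne.symm hji) hX
      set g' : V → ℕ := fun u => if u ∈ X then j else g u with hg'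
      have h2 := hopt' g' (fun u => by by_cases hu : u ∈ X <;> simp [hg', hu, hjI, hgI u])
      have h3 : mass π (univ.filter fun u => g' u ≠ f u) ≤ dist + mass π X := by
        refine le_trans (sum_le_sum_of_subset (?_ : _ ⊆ (univ.filter fun u => g u ≠ f u) ∪ X)) ?_
        swap
        · rw [hdist, mass, mass, ← sum_union_inter (f := π)]; exact Nat.le_add_right _ _
        intro u hu
        by_cases hux : u ∈ X
        · exact mem_union_right _ hux
        · exact mem_union_left _ (by simpa [hg', hux] using hu)
      have h4 := h3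
      have h5 := Nat.mul_le_mul_left Z h1
      rw [mul_add, mul_add] at h5
      have h6 : Z * (2 * between w X (classOf g j)) = 2 * Z * between w X (classOf g j) := by ring
      have h7 : Z * (2 * between w X (classOf g i \ X)) = 2 * Z * between w X Y := by ring
      omega
    have hsum : 2 * Z * ∑ j ∈ I.erase i, between w X (classOf g j) ≤
        b * (2 * Z * between w X Y + mass π X) := by
      rw [mul_sum]
      refine (sum_le_card_nsmul _ _ _ hmove).trans ?_
      rw [smul_eq_mul]
      refine Nat.mul_le_mul_right _ ?_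
      exact (card_erase_le).trans (hfr.symm ▸ hr)
    have hmain : 2 * Z * (mass π X) ≤
        2 * Z * a * between w X Y + a * (b * (2 * Z * between w X Y + mass π X)) := by
      calc 2 * Z * (mass π X) ≤ 2 * Z * (a * between w X Xᶜ) :=
            Nat.mul_le_mul_left _ (hsse X hXn)
        _ ≤ 2 * Z * (a * (between w X Y + ∑ j ∈ I.erase i, between w X (classOf g j))) := by
            gcongr
        _ = 2 * Z * a * between w X Y +
              a * (2 * Z * ∑ j ∈ I.erase i, between w X (classOf g j)) := by ring
        _ ≤ _ := by gcongr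
    refine Nat.le_of_mul_le_mul_left (?_ : Z * _ ≤ Z * _) (by positivity)
    have e1 : a * (b * (2 * Z * between w X Y + mass π X)) =
        2 * Z * a * (b * between w X Y) + Z * (mass π X) := by rw [hZ]; ring
    have e2 : Z * (2 * a * (b + 1) * between w X Y) =
        2 * Z * a * between w X Y + 2 * Z * a * (b * between w X Y) := by ring
    rw [e1] at hmain
    rw [e2]
    have e3 : 2 * Z * (mass π X) = Z * (mass π X) + Z * (mass π X) := by ring
    omega
  have hgsize : ∀ v, n ≤ b * mass π (classOf g (g v)) := by
    intro v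
    by_contra hcon
    push Not at hcon
    have h := hsmall (g v) (classOf g (g v)) (Subset.refl _) hcon.le
    simp [between] at h
    have h1 : π v ≤ mass π (classOf g (g v)) :=
      single_le_sum (fun u _ => Nat.zero_le _) (mem_filter.2 ⟨mem_univ _, rfl⟩)
    have := hπ v
    omega
  refine ⟨g, by rw [himg, hfr]; exact hr, ?_⟩
  intro i
  suffices key : ∀ X ⊆ classOf g i, mass π X ≤ mass π (classOf g i \ X) →
      mass π X ≤ expS a b * between w X (classOf g i \ X) by
    intro X hX
    rcases le_total (mass π X) (mass π (classOf g i \ X)) with h | h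
    · rw [min_eq_left h]; exact key X hX h
    · rw [min_eq_right h, between_comm w hs]
      have hXX : classOf g i \ (classOf g i \ X) = X := Finset.sdiff_sdiff_eq_self hX
      have := key (classOf g i \ X) sdiff_subset (by rw [hXX]; exact h)
      rwa [hXX] at this
  intro X hX hle
  set Y := classOf g i \ X with hY
  by_cases c1 : b * mass π X ≤ n
  · refine (hsmall i X hX c1).trans (Nat.mul_le_mul_right _ ?_)
    rw [expS]; exact Nat.le_add_left _ _
  push Not at c1
  obtain ⟨z, hz⟩ := Infinite.exists_notMem_finset I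
  have hXne : X.Nonempty := by
    rcases X.eq_empty_or_nonempty with rfl | h
    · simp [mass] at c1
    · exact h
  have hYne : Y.Nonempty := by
    rcases Y.eq_empty_or_nonempty with h | h
    · rw [h] at hle
      obtain ⟨x, hx⟩ := hXne
      have h1 : π x ≤ mass π X := single_le_sum (fun u _ => Nat.zero_le _) hx
      have := hπ x
      have h0 : mass π (∅ : Finset V) = 0 := sum_empty
      omega
    · exact h
  set h : V → ℕ := fun u => if u ∈ Y then z else g u with hh
  have hgi : ∀ u ∈ classOf g i, g u = i := fun u hu => (mem_filter.1 hu).2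
  have himh : univ.image h = insert z I := by
    rw [← himg]
    ext j
    simp only [mem_image, mem_univ, true_and, mem_insert]
    constructor
    · rintro ⟨u, rfl⟩
      by_cases hu : u ∈ Y <;> simp [hh, hu]
    · rintro (rfl | ⟨u, rfl⟩)
      · obtain ⟨y, hy⟩ := hYne
        exact ⟨y, by simp [hh, hy]⟩
      · by_cases hu : u ∈ Y
        · obtain ⟨x, hx⟩ := hXne
          have hxY : x ∉ Y := fun hxy => (mem_sdiff.1 hxy).2 hx
          refine ⟨x, ?_⟩
          simp only [hh, if_neg hxY]
          rw [hgi x (hX hx), hgi u (mem_sdiff.1 hu).1]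
        · exact ⟨u, by simp [hh, hu]⟩
  have hsizeh : ∀ u, n ≤ b * mass π (classOf h (h u)) := by
    intro u
    by_cases hu : u ∈ Y
    · have h1 : Y ⊆ classOf h (h u) := fun q hq => by simp [classOf, hh, hq, hu]
      exact c1.le.trans (Nat.mul_le_mul_left _ (hle.trans (sum_le_sum_of_subset h1)))
    · by_cases hui : g u = i
      · have h1 : X ⊆ classOf h (h u) := fun q hq => by
          have hqY : q ∉ Y := fun hxy => (mem_sdiff.1 hxy).2 hq
          simp [classOf, hh, hu, hqY, hgi q (hX hq), hui]
        exact c1.le.trans (Nat.mul_le_mul_left _ (sum_le_sum_of_subset h1))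
      · have h1 : classOf g (g u) ⊆ classOf h (h u) := fun q hq => by
          have hgq : g q = g u := (mem_filter.1 hq).2
          have hqY : q ∉ Y := fun hy => hui (hgq ▸ hgi q (mem_sdiff.1 hy).1)
          simp [classOf, hh, hu, hqY, hgq]
        exact (hgsize u).trans (Nat.mul_le_mul_left _ (sum_le_sum_of_subset h1))
  have hcrossh : crossW w h ≤ crossW w g + 2 * between w X Y := by
    have hrel := crossW_relabel w hs g Y i z (fun e => hz (e ▸ (by
      obtain ⟨x, hx⟩ := hXne
      exact (hgi x (hX hx)) ▸ hgI x))) sdiff_subset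
    have hXX : classOf g i \ Y = X := Finset.sdiff_sdiff_eq_self hX
    rw [hXX, between_comm w hs Y X] at hrel
    exact le_trans (Nat.le_add_right _ _) hrel
  have hnot : n < N * crossW w h := by
    by_contra hcon
    push Not at hcon
    refine hmax ⟨h, ?_, hsizeh, ?_⟩
    · rw [himh, card_insert_of_notMem hz, hfr]
    · rwa [show b + 1 - (r + 1) = b - r by omega]
  have h2g : 2 * (N * crossW w g) ≤ n := by
    refine Nat.le_of_mul_le_mul_right (?_ : _ * B ≤ _ * B) hB
    calc 2 * (N * crossW w g) * B = 2 * (N * B * crossW w g) := by ring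
      _ ≤ 2 * (N * B * crossW w f) := by gcongr
      _ ≤ 2 * (n) := Nat.mul_le_mul_left _ (hM ▸ hfcross)
      _ = n * 2 := by ring
      _ ≤ n * B := Nat.mul_le_mul_left _ (by rw [hB', baseS]; omega)
  have h4a : n ≤ 4 * (N * between w X Y) := by
    have : N * crossW w h ≤ N * (crossW w g + 2 * between w X Y) := Nat.mul_le_mul_left _ hcrossh
    rw [mul_add, show N * (2 * between w X Y) = 2 * (N * between w X Y) by ring] at this
    omega
  calc mass π X ≤ n := sum_le_sum_of_subset (subset_univ X)
    _ ≤ 4 * (N * between w X Y) := h4a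
    _ = 4 * N * between w X Y := by ring
    _ ≤ expS a b * between w X Y := by
        refine Nat.mul_le_mul_right _ ?_
        rw [expS, ← hB', hN]
        have : B ^ (b - r) ≤ B ^ b := Nat.pow_le_pow_right hB (Nat.sub_le _ _)
        omega

end Vale.Agent.P061.SSC
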