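import Vale.Agent.P061.Dense.Tree
import Vale.Agent.P061.SSC.Partition

namespace Vale.Agent.P061.SSC

open Finset Vale.Agent.P061 Vale.Agent.P061.Dense

variable {V E : Type} [Fintype V] [Fintype E] [DecidableEq V]

/-- The degree of a vertex. -/
noncomputable def degG (ends : E → Sym2 V) (v : V) : ℕ := ∑ q, mult ends v q

/-- An edge set inside `P` that connects `P` and has degrees at most `D / k` times the degrees. -/
def Spanner (ends : E → Sym2 V) (k : ℕ) (P : Finset V) (H : Finset E) (D : ℕ) : Prop :=
  (∀ e ∈ H, ∀ v ∈ ends e, v ∈ P) ∧ (∀ v, k * degIn ends H v ≤ D * degG ends v) ∧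
    ∀ p ∈ P, ∀ q ∈ P, (supportGraph ends H).Reachable p q

/-- A tree on `W` inside `P` with degrees at most `D / k` times the degrees. -/
def CapTree (ends : E → Sym2 V) (k : ℕ) (P W : Finset V) (H : Finset E) (D : ℕ) : Prop :=
  W.Nonempty ∧ W ⊆ P ∧ H.card + 1 = W.card ∧ (∀ e ∈ H, ∀ v ∈ ends e, v ∈ W) ∧
    (∀ v, k * degIn ends H v ≤ D * degG ends v) ∧
    ∀ p ∈ W, ∀ q ∈ W, (supportGraph ends H).Reachable p q

/-- An ordering of `U` in which every vertex has many edges to what precedes it. -/
theorem exists_rank (w : V → V → ℕ) (π : V → ℕ) (Q : ℕ) (P : Finset V) :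
    ∀ U : Finset V, U ⊆ P →
      (∀ U' ⊆ U, U'.Nonempty → mass π U' ≤ Q * between w U' (P \ U')) →
      ∃ rk : V → ℕ, ∀ u ∈ U,
        π u ≤ Q * ∑ q ∈ P.filter (fun q => q ∉ U ∨ rk q < rk u), w u q := by
  intro U
  induction U using Finset.strongInduction with
  | _ U ih =>
    intro hUP h
    rcases U.eq_empty_or_nonempty with rfl | hne
    · exact ⟨fun _ => 0, by simp⟩
    obtain ⟨u, hu, huk⟩ : ∃ u ∈ U, π u ≤ Q * ∑ q ∈ P \ U, w u q := by
      by_contra hcon
      push Not at hcon
      have h1 := h U (Subset.refl _) hne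
      have h2 : ∑ p ∈ U, Q * ∑ q ∈ P \ U, w p q < ∑ p ∈ U, π p := sum_lt_sum_of_nonempty hne hcon
      rw [← mul_sum] at h2
      simp only [mass, between] at h1 h2
      omega
    obtain ⟨rk, hrk⟩ := ih (U.erase u) (erase_ssubset hu) ((erase_subset _ _).trans hUP)
      (fun U' hU' => h U' (hU'.trans (erase_subset _ _)))
    refine ⟨fun v => if v = u then 0 else rk v + 1, fun v hv => ?_⟩
    by_cases hvu : v = u
    · subst hvu
      refine huk.trans (Nat.mul_le_mul_left _ (sum_le_sum_of_subset ?_))
      intro q hq
      exact mem_filter.2 ⟨(mem_sdiff.1 hq).1, Or.inl (mem_sdiff.1 hq).2⟩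
    · refine (hrk v (mem_erase.2 ⟨hvu, hv⟩)).trans
        (Nat.mul_le_mul_left _ (sum_le_sum_of_subset ?_))
      intro q hq
      obtain ⟨hqP, hq'⟩ := mem_filter.1 hq
      refine mem_filter.2 ⟨hqP, ?_⟩
      by_cases hqu : q = u
      · right; simp [hqu, hvu]
      rcases hq' with hq' | hq'
      · left; exact fun hqU => hq' (mem_erase.2 ⟨hqu, hqU⟩)
      · right; simp only [if_neg hqu, if_neg hvu]; omega

/-- Number of places a vertex offers as a parent. -/
noncomputable def slot (ends : E → Sym2 V) (k Q : ℕ) (q : V) : ℕ := Q * degG ends q / k + 1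

/-- Hall's theorem gives each vertex of `U` an earlier neighbour with few repetitions. -/
theorem exists_parent (ends : E → Sym2 V) (k Q : ℕ) (hk : 1 ≤ k)
    (hmin : ∀ v, k ≤ degG ends v) (P U : Finset V) (rk : V → ℕ)
    (hrk : ∀ u ∈ U,
      degG ends u ≤ Q * ∑ q ∈ P.filter (fun q => q ∉ U ∨ rk q < rk u), mult ends u q) :
    ∃ φ : U → (_ : V) × ℕ, Function.Injective φ ∧
      ∀ u : U, (φ u).2 < slot ends k Q (φ u).1 ∧
        (φ u).1 ∈ P ∧ ((φ u).1 ∉ U ∨ rk (φ u).1 < rk u.1) ∧
        ∃ e, ends e = s(u.1, (φ u).1) := by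
  classical
  have hcol : ∀ (s : Finset U) (q : V), ∑ u ∈ s, mult ends u.1 q ≤ degG ends q := by
    intro s q
    have h1 : ∑ u ∈ s, mult ends u.1 q = ∑ x ∈ s.image (fun u : U => u.1), mult ends x q :=
      (sum_image (f := fun x => mult ends x q) (g := fun u : U => u.1)
        (fun u _ v _ h => Subtype.ext h)).symm
    have h2 : ∑ x ∈ s.image (fun u : U => u.1), mult ends x q ≤ ∑ x, mult ends x q :=
      sum_le_sum_of_subset (subset_univ _)
    have h3 : ∑ x, mult ends x q = ∑ x, mult ends q x :=
      sum_congr rfl fun x _ => mult_comm ends x q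
    unfold degG
    omega
  let t : U → Finset ((_ : V) × ℕ) := fun u =>
    ((P.filter fun q => q ∉ U ∨ rk q < rk u.1).filter fun q => mult ends u.1 q ≠ 0).sigma
      fun q => range (slot ends k Q q)
  have hhall : ∀ s : Finset U, s.card ≤ (s.biUnion t).card := by
    intro s
    set N := (univ : Finset V).filter fun q => ∃ u ∈ s,
      q ∈ (P.filter fun x => x ∉ U ∨ rk x < rk u.1).filter (fun x => mult ends u.1 x ≠ 0) with hN
    have hb : s.biUnion t = N.sigma fun q => range (slot ends k Q q) := by
      ext ⟨q, j⟩
      simp only [t, hN, mem_biUnion, mem_sigma, mem_filter, mem_univ, true_and]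
      constructor
      · rintro ⟨u, hu, h, hj⟩; exact ⟨⟨u, hu, h⟩, hj⟩
      · rintro ⟨⟨u, hu, h⟩, hj⟩; exact ⟨u, hu, h, hj⟩
    rw [hb, card_sigma]
    simp only [card_range]
    refine Nat.le_of_mul_le_mul_left (?_ : k * s.card ≤ k * _) hk
    have hslot : ∀ q, Q * degG ends q ≤ k * slot ends k Q q := fun q =>
      (Nat.lt_mul_div_succ _ hk).le
    calc k * s.card = ∑ _u ∈ s, k := by rw [sum_const, smul_eq_mul, mul_comm]
      _ ≤ ∑ u ∈ s, Q * ∑ q ∈ N, mult ends u.1 q := by
          refine sum_le_sum fun u hu =>
            ((hmin u.1).trans (hrk u.1 u.2)).trans (Nat.mul_le_mul_left _ ?_)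
          rw [← sum_filter_ne_zero]
          refine sum_le_sum_of_subset ?_
          intro q hq
          exact mem_filter.2 ⟨mem_univ _, u, hu, hq⟩
      _ = Q * ∑ q ∈ N, ∑ u ∈ s, mult ends u.1 q := by rw [← mul_sum, sum_comm]
      _ ≤ Q * ∑ q ∈ N, degG ends q := Nat.mul_le_mul_left _ (sum_le_sum fun q _ => hcol s q)
      _ ≤ k * ∑ q ∈ N, slot ends k Q q := by
          rw [mul_sum, mul_sum]; exact sum_le_sum fun q _ => hslot q
  obtain ⟨φ, hφi, hφ⟩ := (Finset.all_card_le_biUnion_card_iff_exists_injective t).1 hhall
  refine ⟨φ, hφi, fun u => ?_⟩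
  obtain ⟨h, hj⟩ := mem_sigma.1 (hφ u)
  obtain ⟨h1, h2⟩ := mem_filter.1 h
  obtain ⟨e, he⟩ := card_pos.1 (Nat.pos_of_ne_zero h2)
  exact ⟨mem_range.1 hj, (mem_filter.1 h1).1, (mem_filter.1 h1).2, e, by simpa using he⟩

/-- An expander has a connected spanning edge set with proportionally bounded degrees. -/
theorem exists_spanner (ends : E → Sym2 V) (k Q : ℕ) (hk : 1 ≤ k)
    (hmin : ∀ v, k ≤ degG ends v)
    (P : Finset V) (hP : P.Nonempty)
    (hexp : ∀ X ⊆ P, min (mass (degG ends) X) (mass (degG ends) (P \ X)) ≤
      Q * between (mult ends) X (P \ X)) :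
    ∃ H, Spanner ends k P H (4 * Q + 3) := by
  classical
  set D := 3 * Q + 1 with hD
  obtain ⟨p₀, hp₀⟩ := hP
  let cand := (univ : Finset (Finset V)).filter fun W => ∃ H, CapTree ends k P W H D
  have hcand : cand.Nonempty := by
    refine ⟨{p₀}, mem_filter.2 ⟨mem_univ _, ∅, singleton_nonempty p₀, by simpa using hp₀, by simp,
      by simp, by simp [degIn], ?_⟩⟩
    intro p hp q hq
    simp at hp hq; subst hp; subst hq
    exact SimpleGraph.Reachable.refl _
  obtain ⟨W, hW, hmax⟩ := exists_max_image cand card hcand
  obtain ⟨H, hWne, hWP, hcard, hin, hd, hreach⟩ := (mem_filter.1 hW).2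
  set U := P \ W with hU
  set F := W.filter fun v => D * degG ends v < k * (degIn ends H v + 1) with hF
  have hnone : ∀ p ∈ W \ F, ∀ q ∈ U, mult ends p q = 0 := by
    intro p hp q hq
    by_contra hne
    obtain ⟨e, he⟩ := card_pos.1 (Nat.pos_of_ne_zero hne)
    have he' : ends e = s(p, q) := by simpa using he
    have hpW : p ∈ W := (mem_sdiff.1 hp).1
    have hqW : q ∉ W := (mem_sdiff.1 hq).2
    have hplt : k * (degIn ends H p + 1) ≤ D * degG ends p := by
      by_contra hcon
      exact (mem_sdiff.1 hp).2 (mem_filter.2 ⟨hpW, by omega⟩)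
    have hqle : k ≤ D * degG ends q := (hmin q).trans (Nat.le_mul_of_pos_left _ (by omega))
    have heH : e ∉ H := fun h => hqW (hin e h q (by simp [he']))
    have hpq : p ≠ q := fun h => hqW (h ▸ hpW)
    have hnew : CapTree ends k P (insert q W) (insert e H) D := by
      refine ⟨insert_nonempty _ _, insert_subset (mem_sdiff.1 hq).1 hWP, ?_, ?_, ?_, ?_⟩
      · rw [card_insert_of_notMem hqW, card_insert_of_notMem heH]; omega
      · intro x hx v hv
        rcases mem_insert.1 hx with rfl | hx
        · rw [he'] at hv; simp at hv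
          rcases hv with rfl | rfl <;> simp [hpW]
        · exact mem_insert_of_mem (hin x hx v hv)
      · intro v
        have hdv : degIn ends (insert e H) v = degIn ends H v + if v ∈ ends e then 1 else 0 := by
          simp only [degIn]
          rw [filter_insert]
          by_cases hv : v ∈ ends e
          · rw [if_pos hv, if_pos hv, card_insert_of_notMem (by simp [heH])]
          · rw [if_neg hv, if_neg hv, add_zero]
        rw [hdv]
        by_cases hv : v ∈ ends e
        · rw [if_pos hv]
          rw [he'] at hv; simp at hv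
          rcases hv with rfl | rfl
          · exact hplt
          · have : degIn ends H v = 0 := by
              simp only [degIn, card_eq_zero, filter_eq_empty_iff]
              exact fun x hx h => hqW (hin x hx v h)
            simpa [this] using hqle
        · rw [if_neg hv]; simpa using hd v
      · have hle := supportGraph_mono ends (subset_insert e H)
        have hadj : (supportGraph ends (insert e H)).Adj p q := by
          rw [supportGraph, SimpleGraph.fromEdgeSet_adj]
          exact ⟨⟨e, by simp, he'⟩, hpq⟩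
        have hto : ∀ x ∈ insert q W, (supportGraph ends (insert e H)).Reachable p x := by
          intro x hx
          rcases mem_insert.1 hx with rfl | hx
          · exact hadj.reachable
          · exact (hreach p hpW x hx).mono hle
        exact fun x hx y hy => (hto x hx).symm.trans (hto y hy)
    have := hmax _ (mem_filter.2 ⟨mem_univ _, _, hnew⟩)
    rw [card_insert_of_notMem hqW] at this
    omega
  have hFmass : D * mass (degG ends) F ≤ 3 * mass (degG ends) W := by
    calc D * mass (degG ends) F = ∑ v ∈ F, D * degG ends v := by rw [mass, mul_sum]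
      _ ≤ ∑ v ∈ F, k * (degIn ends H v + 1) := sum_le_sum fun v hv => (mem_filter.1 hv).2.le
      _ ≤ ∑ v ∈ W, k * (degIn ends H v + 1) := sum_le_sum_of_subset (filter_subset _ _)
      _ = k * (∑ v ∈ W, degIn ends H v) + k * W.card := by
          simp only [← mul_sum, sum_add_distrib, sum_const, smul_eq_mul, mul_one, mul_add]
          ring
      _ ≤ k * (2 * W.card) + k * W.card := by
          have := sum_degIn_le ends H
          have h2 : ∑ v ∈ W, degIn ends H v ≤ ∑ v, degIn ends H v :=
            sum_le_sum_of_subset (subset_univ _)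
          exact Nat.add_le_add_right (Nat.mul_le_mul_left _ (by omega)) _
      _ = 3 * (W.card * k) := by ring
      _ ≤ 3 * mass (degG ends) W := by
          refine Nat.mul_le_mul_left _ ?_
          rw [← smul_eq_mul]
          exact card_nsmul_le_sum _ _ _ fun v _ => hmin v
  have hbet : between (mult ends) W U ≤ mass (degG ends) F := by
    calc between (mult ends) W U = ∑ p ∈ F, ∑ q ∈ U, mult ends p q := by
          unfold between
          refine (sum_subset (filter_subset _ _) ?_).symm
          intro p hp hpF
          exact sum_eq_zero fun q hq => hnone p (mem_sdiff.2 ⟨hp, hpF⟩) q hq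
      _ ≤ _ := sum_le_sum fun p _ => sum_le_sum_of_subset (subset_univ U)
  have hWpos : 0 < mass (degG ends) W := by
    obtain ⟨v, hv⟩ := hWne
    exact (hk.trans (hmin v)).trans (single_le_sum (fun u _ => Nat.zero_le _) hv)
  have hbig : mass (degG ends) U < mass (degG ends) W := by
    by_contra hcon
    push Not at hcon
    have h1 := hexp W hWP
    rw [← hU, min_eq_left hcon] at h1
    have h2 : mass (degG ends) W * D ≤ mass (degG ends) W * (3 * Q) := by
      calc mass (degG ends) W * D ≤ Q * mass (degG ends) F * D :=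
            Nat.mul_le_mul_right _ (h1.trans (Nat.mul_le_mul_left _ hbet))
        _ = Q * (D * mass (degG ends) F) := by ring
        _ ≤ Q * (3 * mass (degG ends) W) := Nat.mul_le_mul_left _ hFmass
        _ = _ := by ring
    have := Nat.le_of_mul_le_mul_left h2 hWpos
    omega
  have hpeel : ∀ U' ⊆ U, U'.Nonempty →
      mass (degG ends) U' ≤ Q * between (mult ends) U' (P \ U') := by
    intro U' hU' _
    have hU'P : U' ⊆ P := hU'.trans sdiff_subset
    have h1 := hexp U' hU'P
    have h2 : W ⊆ P \ U' := fun x hx => mem_sdiff.2 ⟨hWP hx, fun h => (mem_sdiff.1 (hU' h)).2 hx⟩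
    have h3 : mass (degG ends) W ≤ mass (degG ends) (P \ U') := sum_le_sum_of_subset h2
    have h4 : mass (degG ends) U' ≤ mass (degG ends) U := sum_le_sum_of_subset hU'
    rwa [min_eq_left (by omega)] at h1
  obtain ⟨rk, hrk⟩ := exists_rank (mult ends) (degG ends) Q P U sdiff_subset hpeel
  obtain ⟨φ, hφi, hpar1⟩ := exists_parent ends k Q hk hmin P U rk hrk
  set par : U → V := fun u => (φ u).1 with hpar
  choose pe hpe using fun u => (hpar1 u).2.2.2
  set K := (univ : Finset U).image pe with hK
  refine ⟨H ∪ K, ?_, ?_, ?_⟩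
  · intro e he v hv
    rcases mem_union.1 he with he | he
    · exact hWP (hin e he v hv)
    · obtain ⟨u, -, rfl⟩ := mem_image.1 he
      rw [hpe] at hv
      simp at hv
      rcases hv with rfl | rfl
      · exact (mem_sdiff.1 u.2).1
      · exact (hpar1 u).2.1
  · intro v
    have hKd : degIn ends K v ≤ 1 + slot ends k Q v := by
      have hsub : K.filter (fun e => v ∈ ends e) ⊆
          ((univ.filter fun u : U => u.1 = v) ∪ (univ.filter fun u : U => par u = v)).image pe := by
        intro e he
        obtain ⟨he, hv⟩ := mem_filter.1 he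
        obtain ⟨u, -, rfl⟩ := mem_image.1 he
        rw [hpe] at hv
        simp at hv
        refine mem_image.2 ⟨u, ?_, rfl⟩
        rcases hv with rfl | rfl <;> simp [hpar]
      have h1 : (univ.filter fun u : U => u.1 = v).card ≤ 1 := by
        rw [card_le_one]
        intro p hp q hq
        exact Subtype.ext ((mem_filter.1 hp).2.trans (mem_filter.1 hq).2.symm)
      have h2 : (univ.filter fun u : U => par u = v).card ≤ slot ends k Q v := by
        refine le_trans (card_le_card_of_injOn (t := range (slot ends k Q v))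
          (fun u => (φ u).2) ?_ ?_) (by simp)
        · intro u hu
          have hu' : (φ u).1 = v := (mem_filter.1 hu).2
          have := (hpar1 u).1
          rw [hu'] at this
          simpa using this
        intro p hp q hq hpq
        refine hφi (Sigma.ext ?_ (heq_of_eq hpq))
        exact ((mem_filter.1 (mem_coe.1 hp)).2).trans ((mem_filter.1 (mem_coe.1 hq)).2).symm
      have h3 := card_union_le (univ.filter fun u : U => u.1 = v)
        (univ.filter fun u : U => par u = v)
      calc degIn ends K v ≤ _ := by
            unfold degIn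
            refine le_trans (le_of_eq ?_) ((card_le_card hsub).trans Finset.card_image_le)
            congr!
        _ ≤ 1 + slot ends k Q v := by omega
    have hHd := hd v
    have hu : degIn ends (H ∪ K) v ≤ degIn ends H v + degIn ends K v := by
      unfold degIn
      rw [filter_union]
      exact card_union_le _ _
    have hs : k * slot ends k Q v ≤ Q * degG ends v + k := by
      unfold slot
      rw [mul_add, mul_one]
      exact Nat.add_le_add_right (Nat.mul_div_le _ _) _
    have h5 : k * degIn ends (H ∪ K) v ≤ k * (degIn ends H v + (1 + slot ends k Q v)) :=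
      Nat.mul_le_mul_left _ (hu.trans (by omega))
    rw [mul_add, mul_add, mul_one] at h5
    have := hmin v
    calc k * degIn ends (H ∪ K) v ≤ D * degG ends v + (Q * degG ends v + 2 * degG ends v) := by
          omega
      _ = (4 * Q + 3) * degG ends v := by rw [hD]; ring
  · obtain ⟨w₀, hw₀⟩ := hWne
    have hto : ∀ m, ∀ u : U, rk u.1 ≤ m → (supportGraph ends (H ∪ K)).Reachable w₀ u.1 := by
      intro m
      induction m using Nat.strong_induction_on with
      | _ m ih =>
        intro u hu
        have hadj : (supportGraph ends (H ∪ K)).Reachable (par u) u.1 := by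
          by_cases hne : par u = u.1
          · rw [hne]
          refine SimpleGraph.Adj.reachable ?_
          rw [supportGraph, SimpleGraph.fromEdgeSet_adj]
          exact ⟨⟨pe u, mem_union_right _ (mem_image_of_mem _ (mem_univ _)),
            by rw [hpe, Sym2.eq_swap]⟩, hne⟩
        refine SimpleGraph.Reachable.trans ?_ hadj
        by_cases hpU : par u ∈ U
        · have hlt : rk (par u) < rk u.1 := (hpar1 u).2.2.1.resolve_left (not_not.2 hpU)
          exact ih (rk (par u)) (by omega) ⟨par u, hpU⟩ le_rfl
        · have hpW : par u ∈ W := by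
            by_contra h
            exact hpU (mem_sdiff.2 ⟨(hpar1 u).2.1, h⟩)
          exact (hreach w₀ hw₀ _ hpW).mono (supportGraph_mono ends subset_union_left)
    have hall : ∀ p ∈ P, (supportGraph ends (H ∪ K)).Reachable w₀ p := by
      intro p hp
      by_cases hpW : p ∈ W
      · exact (hreach w₀ hw₀ p hpW).mono (supportGraph_mono ends subset_union_left)
      · exact hto _ ⟨p, mem_sdiff.2 ⟨hp, hpW⟩⟩ le_rfl
    exact fun p hp q hq => (hall p hp).symm.trans (hall q hq)

/-- A proportional edge set inside `P` crosses a cut few times relative to each side's mass. -/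
theorem cutSize_spanner_le (ends : E → Sym2 V) (k : ℕ) (P : Finset V) (H : Finset E) (D : ℕ)
    (h : Spanner ends k P H D) (S : Finset V) :
    k * cutSize ends H S ≤
      D * min (mass (degG ends) (P ∩ S)) (mass (degG ends) (P \ (P ∩ S))) := by
  classical
  obtain ⟨hin, hdeg, -⟩ := h
  have key : ∀ A : Finset V, (∀ e ∈ H, Crosses ends S e → ∃ v ∈ A, v ∈ ends e) →
      k * cutSize ends H S ≤ D * mass (degG ends) A := by
    intro A hA
    calc k * cutSize ends H S ≤ k * (A.biUnion fun v => H.filter fun e => v ∈ ends e).card := by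
          refine Nat.mul_le_mul_left _ ?_
          unfold cutSize
          refine card_le_card fun e he => ?_
          obtain ⟨heH, hc⟩ := mem_filter.1 he
          obtain ⟨v, hv, hve⟩ := hA e heH hc
          exact mem_biUnion.2 ⟨v, hv, mem_filter.2 ⟨heH, hve⟩⟩
      _ ≤ k * ∑ v ∈ A, (H.filter fun e => v ∈ ends e).card :=
          Nat.mul_le_mul_left _ card_biUnion_le
      _ = ∑ v ∈ A, k * (H.filter fun e => v ∈ ends e).card := by rw [mul_sum]
      _ ≤ ∑ v ∈ A, D * degG ends v := sum_le_sum fun v _ => by
          have := hdeg v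
          unfold degIn at this
          exact le_of_eq_of_le (by congr! 3) this
      _ = D * mass (degG ends) A := by rw [mass, mul_sum]
  rcases le_total (mass (degG ends) (P ∩ S)) (mass (degG ends) (P \ (P ∩ S))) with hle | hle
  · rw [min_eq_left hle]
    refine key _ fun e he hc => ?_
    obtain ⟨p, q, hpq, hp, -⟩ := hc
    exact ⟨p, mem_inter.2 ⟨hin e he p (by simp [hpq]), hp⟩, by simp [hpq]⟩
  · rw [min_eq_right hle]
    refine key _ fun e he hc => ?_
    obtain ⟨p, q, hpq, -, hq⟩ := hc
    exact ⟨q, mem_sdiff.2 ⟨hin e he q (by simp [hpq]), fun h => hq (mem_inter.1 h).2⟩,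
      by simp [hpq]⟩

end Vale.Agent.P061.SSC
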